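import Vale.Agent.P090.Bdl.B1

/-! A negative answer to Kalton's question: a countable uniformly discrete metric space whose
Lipschitz-free space fails the bounded approximation property. -/

namespace Vale.Agent.Results.P090.KaltonNegative

open Vale.Agent.P090

/-- There is a countable uniformly discrete metric space `M` such that `F(M)` (for every choice of
the base point) fails the bounded approximation property. -/
theorem result : ∃ (M : Type) (_ : MetricSpace M), Nonempty M ∧ Countable M ∧
    UniformlyDiscrete M ∧ ∀ o : M, ¬ HasBAP (LipFree M o) :=
  ⟨MM, inferInstance, ⟨Glue.base blk⟩, inferInstance,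
    ⟨1, one_pos, fun _ _ h => glue_one_le blk h⟩, fun o h => by
      obtain ⟨lam, h1, h2⟩ := hasBAP_base (Glue.base blk) o h
      exact no_bap lam h1 h2⟩

end Vale.Agent.Results.P090.KaltonNegative
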